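import Vale.Agent.P166.Haar2.Struct.Util
import Vale.Agent.P157.Full.Sphere.TreeId
import Vale.Agent.P157.Parisi.Site.Casc
import Vale.Agent.P157.Parisi.Main.Mass

/-!
The structure theorem: in the limit array the rotation identity, evaluated on the trees of two and
three replicas, puts every block on the path of the atoms.
-/

noncomputable section

open MeasureTheory Filter
open scoped BigOperators Topology

namespace Vale.Agent.P166.Haar2.Struct

open Vale.Agent.P157.Parisi (IsPath Path weight)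
open Vale.Agent.P157.Parisi.Site (sum_shape_two)
open Vale.Agent.P157.Parisi.Full.Spherical (sum_shape_three)
open Vale.Agent.P157.Parisi.Main (sum_shapeProb weight_nonneg)
open Vale.Agent.P168 (Shape shapeProb padded)
open Vale.Agent.P168.Cascade (IsTree isTree_of_prob padded_succ padded_top)

variable {K : ℕ}

/-- The overlaps of the first `n` replicas in the array. -/
def blockOfArr (n : ℕ) (R : VArr (K + 2)) : Fin (K + 2) → Fin n → Fin n → ℝ :=
  fun g a b => R (a : ℕ) (b : ℕ) g

@[fun_prop]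
lemma continuous_blockOfArr (n : ℕ) : Continuous (blockOfArr (K := K) n) := by
  unfold blockOfArr; fun_prop

/-- The shape read by `lev`. -/
def shapeOfArr {r : ℕ} (lev : (Fin (K + 2) → ℝ) → Fin (r + 1)) (n : ℕ) (R : VArr (K + 2)) :
    Shape r n :=
  fun a b => if a = b then Fin.last r else lev (R (a : ℕ) (b : ℕ))

lemma measurable_shapeOfArr {r : ℕ} {lev : (Fin (K + 2) → ℝ) → Fin (r + 1)} (hl : Measurable lev)
    (n : ℕ) : Measurable (shapeOfArr lev n) := by
  refine measurable_pi_lambda _ fun a => measurable_pi_lambda _ fun b => ?_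
  unfold shapeOfArr
  split_ifs
  · exact measurable_const
  · exact hl.comp ((measurable_pi_apply _).comp (measurable_pi_apply _))

/-- The limit data: the limit law of the overlaps. -/
structure Lim (Q : SysSeq K) (φ : ℕ → ℕ) (μ : Measure (VArr (K + 2))) : Prop where
  prob : IsProbabilityMeasure μ
  tendsto : ∀ (n : ℕ) (F : (Fin (K + 2) → Fin n → Fin n → ℝ) → ℝ), Continuous F →
    Tendsto (fun j => Q.mean (φ j) n F) atTop (𝓝 (∫ R, F (blockOfArr n R) ∂μ))
  box : ∀ᵐ R ∂μ, ∀ a b g, |R a b g| ≤ 1 ∧ R a b g = R b a g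

namespace Lim

variable {Q : SysSeq K} {φ : ℕ → ℕ} {μ : Measure (VArr (K + 2))} (hL : Lim Q φ μ)
include hL

lemma sum_block (a b : ℕ) : ∀ᵐ R ∂μ, R a b 0 = ∑ k : Fin (K + 1), R a b k.succ := by
  have := hL.prob
  set n := max a b + 1
  set F : (Fin (K + 2) → Fin n → Fin n → ℝ) → ℝ := fun R =>
    |R 0 ⟨a, by omega⟩ ⟨b, by omega⟩ - ∑ k : Fin (K + 1), R k.succ ⟨a, by omega⟩ ⟨b, by omega⟩|
  have hF : Continuous F := by fun_prop
  have hzero : ∀ j, Q.mean (φ j) n F = 0 := fun j => by
    simp only [SysSeq.mean, Sys.ovMean, Vale.Agent.P168.Limit.rav, F, SysSeq.sys, ← ovs_sum,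
      sub_self, abs_zero, mul_zero, Finset.sum_const_zero, integral_zero]
  have h0 : ∫ R, F (blockOfArr n R) ∂μ = 0 :=
    tendsto_nhds_unique (hL.tendsto n F hF) (by simp [hzero])
  have hint : Integrable (fun R => F (blockOfArr n R)) μ := by
    refine integrable_of_abs_le (hF.comp (continuous_blockOfArr n)).measurable (B := (K : ℝ) + 2) ?_
    filter_upwards [hL.box] with R hR
    simp only [F, blockOfArr, abs_abs]
    refine (abs_sub _ _).trans ?_
    have h1 := (hR a b 0).1
    have h2 : |∑ k : Fin (K + 1), R a b k.succ| ≤ (K : ℝ) + 1 :=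
      (Finset.abs_sum_le_sum_abs _ _).trans
        ((Finset.sum_le_sum fun k _ => (hR a b k.succ).1).trans (by simp))
    linarith
  filter_upwards [(integral_eq_zero_iff_of_nonneg (fun R => abs_nonneg _) hint).1 h0] with R hR
  simpa [F, blockOfArr, sub_eq_zero] using hR

lemma map_pair {a b : ℕ} (hab : a ≠ b) :
    μ.map (fun R => R a b) = μ.map (fun R => R 0 1) := by
  have := hL.prob
  refine map_eq_map ((measurable_pi_apply _).comp (measurable_pi_apply _))
    ((measurable_pi_apply _).comp (measurable_pi_apply _)) fun u hu => ?_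
  set n := max a b + 1
  set e : Fin 2 → Fin n := ![⟨a, by omega⟩, ⟨b, by omega⟩]
  have he : Function.Injective e := by
    intro i i' h
    fin_cases i <;> fin_cases i' <;> simp_all [e, Fin.ext_iff, hab.symm]
  set F : (Fin (K + 2) → Fin 2 → Fin 2 → ℝ) → ℝ := fun R => u fun g => R g 0 1
  have hF : Continuous F := by fun_prop
  have hF' : Continuous fun R : Fin (K + 2) → Fin n → Fin n → ℝ =>
      F fun g i i' => R g (e i) (e i') := Continuous.comp hF
    (f := fun (R : Fin (K + 2) → Fin n → Fin n → ℝ) (g : Fin (K + 2)) (i i' : Fin 2) =>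
      R g (e i) (e i')) (by fun_prop)
  have h1 := hL.tendsto n _ hF'
  simp only [mean_comp Q _ he F] at h1
  exact tendsto_nhds_unique h1 (hL.tendsto 2 F hF)

end Lim

/-- One approximation of the limit array by a tree. -/
structure Cell (μ : Measure (VArr (K + 2))) (δ : ℝ) where
  ξ : Path
  e : Fin (K + 1) → El ξ.r
  lev : (Fin (K + 2) → ℝ) → Fin (ξ.r + 1)
  meas : Measurable lev
  cov : ∀ k, (e k).IsCov ∧ (e k).s ≤ 1
  law : ∀ n v, μ.real {R | shapeOfArr lev n R = v} = shapeProb ξ.m n v
  close : ∀ n, ∀ᵐ R ∂μ, ∀ a b : Fin n,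
    |R (a : ℕ) (b : ℕ) 0 - (if a = b then 1 else ξ.q (shapeOfArr lev n R a b))| ≤ δ ∧
      ∀ k : Fin (K + 1), |R (a : ℕ) (b : ℕ) k.succ -
        (if a = b then (e k).s else (e k).v (shapeOfArr lev n R a b))| ≤ δ

lemma El.IsCov.abs_le {r : ℕ} {x : El r} (hx : x.IsCov) (hs : x.s ≤ 1) :
    |x.s| ≤ 1 ∧ ∀ p, |x.v p| ≤ 1 := by
  have h1 : ∀ p, 0 ≤ x.v p ∧ x.v p ≤ x.s := fun p =>
    ⟨hx.nonneg.trans (hx.mono (Fin.zero_le p)), (hx.mono (Fin.le_last p)).trans hx.le⟩
  refine ⟨?_, fun p => ?_⟩
  · rw [_root_.abs_le]; constructor <;> linarith [(h1 0).1, (h1 0).2]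
  · rw [_root_.abs_le]; constructor <;> linarith [(h1 p).1, (h1 p).2]

lemma upMass_eq {r : ℕ} (m : Fin r → ℝ) (p : Fin (r + 1)) :
    El.upMass m p = padded m (p.val + 1) := by
  induction p using Fin.lastCases with
  | last => simp [El.upMass, padded_top]
  | cast i => simp [El.upMass, padded_succ]

lemma abs_mul_sub_le {x y x' y' δ : ℝ} (hx : |x - x'| ≤ δ) (hy : |y - y'| ≤ δ) (hy1 : |y| ≤ 1)
    (hx1 : |x'| ≤ 1) : |x * y - x' * y'| ≤ 2 * δ := by
  have h : x * y - x' * y' = (x - x') * y + x' * (y - y') := by ring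
  rw [h]
  refine (abs_add_le _ _).trans ?_
  rw [abs_mul, abs_mul]
  have h1 := mul_le_mul hx hy1 (abs_nonneg _) ((abs_nonneg _).trans hx)
  have h2 := mul_le_mul hx1 hy (abs_nonneg _) zero_le_one
  linarith

/-- The integrand of the rotation identity on three replicas. -/
def rotBody (A : Atoms K) (k : Fin (K + 1)) (R : VArr (K + 2)) : ℝ :=
  A.c k * R 0 1 (Fin.last K).succ - A.ctop * R 0 1 k.succ +
    (A.a k - A.top) * (R 0 0 k.succ * R 0 1 (Fin.last K).succ +
      R 0 1 k.succ * R 1 1 (Fin.last K).succ - 2 * (R 0 2 k.succ * R 2 1 (Fin.last K).succ))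

/-- The same on the diagonal. -/
def rotSelf (A : Atoms K) (k : Fin (K + 1)) (R : VArr (K + 2)) : ℝ :=
  A.c k * R 0 0 (Fin.last K).succ - A.ctop * R 0 0 k.succ +
    (A.a k - A.top) * (R 0 0 k.succ * R 0 0 (Fin.last K).succ -
      R 0 1 k.succ * R 1 0 (Fin.last K).succ)

section identities

variable {Q : SysSeq K} {φ : ℕ → ℕ} {μ : Measure (VArr (K + 2))} {A : Atoms K}

lemma rot_body (hL : Lim Q φ μ) (hR : Q.Rot A) (hφ : StrictMono φ) (k : Fin (K + 1))
    {s : Set (Fin (K + 2) → ℝ)} (hs : MeasurableSet s) :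
    ∫ R in (fun R : VArr (K + 2) => R 0 1) ⁻¹' s, rotBody A k R ∂μ = 0 := by
  have := hL.prob
  have hmv : Measurable fun R : VArr (K + 2) => R 0 1 := by fun_prop
  refine setIntegral_eq_zero hmv (by unfold rotBody; fun_prop)
    (B := |A.c k| + |A.ctop| + |A.a k - A.top| * 4) ?_ (fun u hu => ?_) hs
  · filter_upwards [hL.box] with R hR'
    have hb : ∀ a b g, |R a b g| ≤ 1 := fun a b g => (hR' a b g).1
    have hp : ∀ x y : ℝ, |x| ≤ 1 → |y| ≤ 1 → |x * y| ≤ 1 := fun x y hx hy => by
      rw [abs_mul]; exact (mul_le_mul hx hy (abs_nonneg _) zero_le_one).trans_eq (one_mul 1)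
    refine (abs_add_le _ _).trans (add_le_add ((abs_sub _ _).trans ?_) ?_)
    · rw [abs_mul, abs_mul]
      exact add_le_add (mul_le_of_le_one_right (abs_nonneg _) (hb _ _ _))
        (mul_le_of_le_one_right (abs_nonneg _) (hb _ _ _))
    · rw [abs_mul]
      refine mul_le_mul_of_nonneg_left ((abs_sub _ _).trans ?_) (abs_nonneg _)
      rw [abs_mul (2 : ℝ), abs_two]
      have := (abs_add_le _ _).trans (add_le_add
        (hp _ _ (hb 0 0 k.succ) (hb 0 1 (Fin.last K).succ))
        (hp _ _ (hb 0 1 k.succ) (hb 1 1 (Fin.last K).succ)))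
      have := hp _ _ (hb 0 2 k.succ) (hb 2 1 (Fin.last K).succ)
      linarith
  · set F : (Fin (K + 2) → Fin 2 → Fin 2 → ℝ) → ℝ := fun R => u fun g => R g 0 1
    have hF : Continuous F := by fun_prop
    set G : (Fin (K + 2) → Fin 3 → Fin 3 → ℝ) → ℝ := fun R =>
      F (fun g a b => R g a.castSucc b.castSucc) *
        (A.c k * R (Fin.last K).succ (0 : Fin 2).castSucc (1 : Fin 2).castSucc -
          A.c (Fin.last K) * R k.succ (0 : Fin 2).castSucc (1 : Fin 2).castSucc +
          (A.a k - A.a (Fin.last K)) * ((∑ i : Fin 2, R k.succ (0 : Fin 2).castSucc i.castSucc *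
              R (Fin.last K).succ i.castSucc (1 : Fin 2).castSucc) -
            ((2 : ℕ) : ℝ) * (R k.succ (0 : Fin 2).castSucc (Fin.last 2) *
              R (Fin.last K).succ (Fin.last 2) (1 : Fin 2).castSucc)))
    have hG : Continuous G := by fun_prop
    have h1 := (hR 2 0 1 k (Fin.last K) F hF).comp hφ.tendsto_atTop
    have h2 := tendsto_nhds_unique (hL.tendsto 3 G hG) h1
    rw [← h2]
    refine integral_congr_ae (Eventually.of_forall fun R => ?_)
    simp [G, F, rotBody, blockOfArr, Fin.sum_univ_two, Atoms.ctop, Atoms.top, Fin.last]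

lemma rot_self (hL : Lim Q φ μ) (hR : Q.Rot A) (hφ : StrictMono φ) (k : Fin (K + 1)) :
    ∫ R, rotSelf A k R ∂μ = 0 := by
  have := hL.prob
  set G : (Fin (K + 2) → Fin 2 → Fin 2 → ℝ) → ℝ := fun R =>
    (fun _ : Fin (K + 2) → Fin 1 → Fin 1 → ℝ => (1 : ℝ)) (fun g a b => R g a.castSucc b.castSucc) *
      (A.c k * R (Fin.last K).succ (0 : Fin 1).castSucc (0 : Fin 1).castSucc -
        A.c (Fin.last K) * R k.succ (0 : Fin 1).castSucc (0 : Fin 1).castSucc +
        (A.a k - A.a (Fin.last K)) * ((∑ i : Fin 1, R k.succ (0 : Fin 1).castSucc i.castSucc *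
            R (Fin.last K).succ i.castSucc (0 : Fin 1).castSucc) -
          ((1 : ℕ) : ℝ) * (R k.succ (0 : Fin 1).castSucc (Fin.last 1) *
            R (Fin.last K).succ (Fin.last 1) (0 : Fin 1).castSucc)))
  have hG : Continuous G := by fun_prop
  have h1 := (hR 1 0 0 k (Fin.last K) (fun _ => 1) continuous_const).comp hφ.tendsto_atTop
  have h2 := tendsto_nhds_unique (hL.tendsto 2 G hG) h1
  rw [← h2]
  refine integral_congr_ae (Eventually.of_forall fun R => ?_)
  simp [G, rotSelf, blockOfArr, Atoms.ctop, Atoms.top, Fin.last]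

lemma sum_indicator_eq {r : ℕ} {μ : Measure (VArr (K + 2))} [IsProbabilityMeasure μ]
    {lev : (Fin (K + 2) → ℝ) → Fin (r + 1)} (hl : Measurable lev) {m : Fin r → ℝ} {n : ℕ}
    (hlaw : ∀ v, μ.real {R | shapeOfArr lev n R = v} = shapeProb m n v) (G : Shape r n → ℝ) :
    ∫ R, G (shapeOfArr lev n R) ∂μ = ∑ v, shapeProb m n v * G v := by
  have hm := measurable_shapeOfArr hl n
  have := Measure.isProbabilityMeasure_map (μ := μ) hm.aemeasurable
  rw [← integral_map hm.aemeasurable (f := G) Measurable.of_discrete.aestronglyMeasurable,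
    integral_fintype (Integrable.of_finite)]
  refine Finset.sum_congr rfl fun v _ => ?_
  rw [smul_eq_mul, map_measureReal_apply hm (MeasurableSet.singleton v), ← hlaw v]
  rfl

lemma measurable_shape_fun {r : ℕ} {lev : (Fin (K + 2) → ℝ) → Fin (r + 1)} (hl : Measurable lev)
    {n : ℕ} (G : Shape r n → ℝ) : Measurable fun R => G (shapeOfArr lev n R) :=
  (Measurable.of_discrete (f := G)).comp (measurable_shapeOfArr hl n)

lemma integrable_shape_fun {r : ℕ} {μ : Measure (VArr (K + 2))} [IsProbabilityMeasure μ]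
    {lev : (Fin (K + 2) → ℝ) → Fin (r + 1)} (hl : Measurable lev)
    {n : ℕ} (G : Shape r n → ℝ) : Integrable (fun R => G (shapeOfArr lev n R)) μ :=
  integrable_of_abs_le (measurable_shape_fun hl G) (B := ∑ v, |G v|)
    (Eventually.of_forall fun _ => Finset.single_le_sum (f := fun v => |G v|)
      (fun _ _ => abs_nonneg _) (Finset.mem_univ _))

lemma sum_weight' {r : ℕ} (m : Fin r → ℝ) : ∑ p : Fin (r + 1), weight m p = 1 := by
  simp only [weight, Finset.sum_sub_distrib]
  rw [Fin.sum_univ_castSucc (fun p => (Fin.snoc m 1 : Fin (r + 1) → ℝ) p), Fin.sum_univ_succ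
    (fun p => (Fin.cons 0 m : Fin (r + 1) → ℝ) p)]
  simp

variable {δ : ℝ}

lemma Cell.law_pair (hL : Lim Q φ μ) (c : Cell μ δ) {a b : ℕ} (hab : a ≠ b)
    (G : Fin (c.ξ.r + 1) → ℝ) : ∫ R, G (c.lev (R a b)) ∂μ = ∑ p, weight c.ξ.m p * G p := by
  have := hL.prob
  have hG : Measurable fun v => G (c.lev v) := Measurable.of_discrete.comp c.meas
  rw [← integral_map (φ := fun R : VArr (K + 2) => R a b) (f := fun v => G (c.lev v))
    ((measurable_pi_apply b).comp (measurable_pi_apply a)).aemeasurable hG.aestronglyMeasurable,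
    hL.map_pair hab,
    integral_map (φ := fun R : VArr (K + 2) => R 0 1)
    ((measurable_pi_apply 1).comp (measurable_pi_apply 0)).aemeasurable hG.aestronglyMeasurable,
    ← sum_shape_two c.ξ.m G, ← sum_indicator_eq c.meas (c.law 2) fun v => G (v 0 1)]
  rfl

variable (hL : Lim Q φ μ) (c : Cell μ δ)
include hL c

lemma Cell.delta_nonneg : 0 ≤ δ := by
  have := hL.prob
  obtain ⟨R, hR⟩ := (c.close 1).exists
  exact (abs_nonneg _).trans (hR 0 0).1

lemma Cell.sum_dist :
    |(∑ k, (c.e k).s) - 1| + ∑ p, weight c.ξ.m p * |(∑ k, (c.e k).v p) - c.ξ.q p| ≤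
      2 * ((K : ℝ) + 2) * δ := by
  have := hL.prob
  have hδ := c.delta_nonneg hL
  have key : ∀ (t : ℝ) (u : Fin (K + 1) → ℝ) (R : VArr (K + 2)) (a b : ℕ),
      R a b 0 = ∑ k : Fin (K + 1), R a b k.succ → |R a b 0 - t| ≤ δ →
      (∀ k : Fin (K + 1), |R a b k.succ - u k| ≤ δ) → |(∑ k, u k) - t| ≤ ((K : ℝ) + 2) * δ := by
    intro t u R a b h0 ht hu
    have h1 : (∑ k, u k) - t = (R a b 0 - t) - ∑ k : Fin (K + 1), (R a b k.succ - u k) := by
      rw [Finset.sum_sub_distrib, h0]; ring
    rw [h1]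
    refine (abs_sub _ _).trans ?_
    have h2 : |∑ k : Fin (K + 1), (R a b k.succ - u k)| ≤ ((K : ℝ) + 1) * δ :=
      (Finset.abs_sum_le_sum_abs _ _).trans ((Finset.sum_le_sum fun k _ => hu k).trans (by simp))
    linarith
  have hs : |(∑ k, (c.e k).s) - 1| ≤ ((K : ℝ) + 2) * δ := by
    obtain ⟨R, hR, hR0⟩ := ((c.close 1).and (hL.sum_block 0 0)).exists
    exact key 1 _ R 0 0 hR0 (by simpa using (hR 0 0).1) fun k => by simpa using (hR 0 0).2 k
  have hv : ∀ᵐ R ∂μ, |(∑ k, (c.e k).v (c.lev (R 0 1))) - c.ξ.q (c.lev (R 0 1))| ≤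
      ((K : ℝ) + 2) * δ := by
    filter_upwards [c.close 2, hL.sum_block 0 1] with R hR hR0
    exact key _ _ R 0 1 hR0 (by simpa [shapeOfArr] using (hR 0 1).1)
      fun k => by simpa [shapeOfArr] using (hR 0 1).2 k
  have hm : Measurable fun R : VArr (K + 2) => c.lev (R 0 1) := c.meas.comp (by fun_prop)
  have h2 := integral_mono_ae
    (integrable_of_abs_le (μ := μ) (Measurable.of_discrete.comp hm :
      Measurable ((fun p => |(∑ k, (c.e k).v p) - c.ξ.q p|) ∘ fun R : VArr (K + 2) => c.lev (R 0 1)))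
      (B := ((K : ℝ) + 2) * δ) (hv.mono fun R h => by simpa using h))
    (integrable_const (((K : ℝ) + 2) * δ)) hv
  have h3 := c.law_pair hL zero_ne_one fun p => |(∑ k, (c.e k).v p) - c.ξ.q p|
  simp only [Function.comp_apply, integral_const, probReal_univ, one_smul] at h2
  rw [h3] at h2
  linarith

lemma Cell.rot_dist (hR : Q.Rot A) (hφ : StrictMono φ) (k : Fin (K + 1)) :
    El.dist c.ξ.m (El.smul (A.c k) (c.e (Fin.last K)))
      ⟨A.ctop * (c.e k).s + A.gapTop k * (El.mul c.ξ.m (c.e k) (c.e (Fin.last K))).s,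
        fun p => A.ctop * (c.e k).v p +
          A.gapTop k * (El.mul c.ξ.m (c.e k) (c.e (Fin.last K))).v p⟩ ≤
      2 * (A.c k + A.ctop + 8 * |A.gapTop k|) * δ := by
  have := hL.prob
  have hδ := c.delta_nonneg hL
  set m := c.ξ.m
  set x := c.e k
  set y := c.e (Fin.last K)
  obtain ⟨hxs, hxv⟩ := El.IsCov.abs_le (c.cov k).1 (c.cov k).2
  obtain ⟨hys, hyv⟩ := El.IsCov.abs_le (c.cov (Fin.last K)).1 (c.cov (Fin.last K)).2
  have hgap : A.a k - A.top = -A.gapTop k := by rw [Atoms.gapTop]; ring
  have hck : 0 ≤ A.c k := (A.pos k).le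
  have hct : 0 ≤ A.ctop := (A.pos _).le
  set Γ := A.c k + A.ctop + 8 * |A.gapTop k|
  have hΓ : 0 ≤ Γ := by positivity
  have hlin : ∀ (X Y X' Y' P P' : ℝ), |X - X'| ≤ δ → |Y - Y'| ≤ δ → |P - P'| ≤ 8 * δ →
      |(A.c k * Y - A.ctop * X + (A.a k - A.top) * P) -
        (A.c k * Y' - A.ctop * X' + (A.a k - A.top) * P')| ≤ Γ * δ := by
    intro X Y X' Y' P P' hX hY hP
    have e : (A.c k * Y - A.ctop * X + (A.a k - A.top) * P) -
        (A.c k * Y' - A.ctop * X' + (A.a k - A.top) * P') =
        A.c k * (Y - Y') + -(A.ctop * (X - X')) + -(A.gapTop k * (P - P')) := by rw [hgap]; ring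
    rw [e]
    refine ((abs_add_le _ _).trans (add_le_add_left (abs_add_le _ _) _)).trans ?_
    rw [abs_neg, abs_neg, abs_mul, abs_mul, abs_mul, abs_of_nonneg hck, abs_of_nonneg hct]
    have h1 := mul_le_mul_of_nonneg_left hY hck
    have h2 := mul_le_mul_of_nonneg_left hX hct
    have h3 := mul_le_mul_of_nonneg_left hP (abs_nonneg (A.gapTop k))
    simp only [Γ]; linarith
  -- the diagonal
  set S : Shape c.ξ.r 2 → ℝ := fun v => A.c k * y.s - A.ctop * x.s +
    (A.a k - A.top) * (x.s * y.s - x.v (v 0 1) * y.v (v 0 1))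
  have hclose2 : ∀ᵐ R ∂μ, |rotSelf A k R - S (shapeOfArr c.lev 2 R)| ≤ Γ * δ := by
    filter_upwards [c.close 2, hL.box] with R hR' hb
    have a00 := (hR' 0 0).2 k
    have b00 := (hR' 0 0).2 (Fin.last K)
    have a01 := (hR' 0 1).2 k
    have b01 := (hR' 0 1).2 (Fin.last K)
    simp only [Fin.val_zero, Fin.val_one, if_true, if_neg (zero_ne_one : (0 : Fin 2) ≠ 1)] at a00 b00 a01 b01
    rw [(hb 0 1 (Fin.last K).succ).2] at b01
    refine hlin _ _ _ _ _ _ a00 b00 ?_
    have p1 := abs_mul_sub_le a00 b00 (hb _ _ _).1 hxs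
    have p2 := abs_mul_sub_le a01 b01 (hb _ _ _).1 (hxv _)
    refine le_trans (le_of_eq ?_) ((abs_sub _ _).trans ((add_le_add p1 p2).trans (by linarith)))
    congr 1; ring
  have hSint : ∫ R, S (shapeOfArr c.lev 2 R) ∂μ =
      A.c k * y.s - A.ctop * x.s + (A.a k - A.top) * (El.mul m x y).s := by
    rw [sum_indicator_eq c.meas (c.law 2) S]
    refine (sum_shape_two m fun p => A.c k * y.s - A.ctop * x.s +
      (A.a k - A.top) * (x.s * y.s - x.v p * y.v p)).trans ?_
    calc (∑ p, weight m p * (A.c k * y.s - A.ctop * x.s +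
            (A.a k - A.top) * (x.s * y.s - x.v p * y.v p))) =
          ∑ p, ((A.c k * y.s - A.ctop * x.s + (A.a k - A.top) * (x.s * y.s)) * weight m p -
            (A.a k - A.top) * (weight m p * x.v p * y.v p)) :=
          Finset.sum_congr rfl fun p _ => by ring
      _ = _ := by
          rw [Finset.sum_sub_distrib, ← Finset.mul_sum, ← Finset.mul_sum, sum_weight']
          simp only [El.mul]
          ring
  have hself : |A.c k * y.s - A.ctop * x.s + (A.a k - A.top) * (El.mul m x y).s| ≤ Γ * δ := by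
    have i1 : Integrable (fun R => S (shapeOfArr c.lev 2 R)) μ := integrable_shape_fun c.meas S
    have i2 : Integrable (rotSelf A k) μ := by
      refine integrable_of_abs_le (by unfold rotSelf; fun_prop) (B := Γ * δ + ∑ v, |S v|) ?_
      filter_upwards [hclose2] with R hR'
      have := Finset.single_le_sum (f := fun v => |S v|) (fun _ _ => abs_nonneg _)
        (Finset.mem_univ (shapeOfArr c.lev 2 R))
      linarith [abs_sub_abs_le_abs_sub (rotSelf A k R) (S (shapeOfArr c.lev 2 R))]
    rw [← hSint, ← abs_neg]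
    calc |-∫ R, S (shapeOfArr c.lev 2 R) ∂μ| =
        |∫ R, (rotSelf A k R - S (shapeOfArr c.lev 2 R)) ∂μ| := by
          rw [integral_sub i2 i1, rot_self hL hR hφ k, zero_sub]
      _ ≤ ∫ R, |rotSelf A k R - S (shapeOfArr c.lev 2 R)| ∂μ := abs_integral_le_integral_abs
      _ ≤ ∫ _, Γ * δ ∂μ := integral_mono_ae (i2.sub i1).abs (integrable_const _) hclose2
      _ = Γ * δ := by simp
  -- the levels
  set res : Fin (c.ξ.r + 1) → ℝ := fun p =>
    A.c k * y.v p - A.ctop * x.v p + (A.a k - A.top) * (El.mul m x y).v p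
  set T : Shape c.ξ.r 3 → ℝ := fun v => A.c k * y.v (v 0 1) - A.ctop * x.v (v 0 1) +
    (A.a k - A.top) * (x.s * y.v (v 0 1) + x.v (v 0 1) * y.s - 2 * (x.v (v 0 2) * y.v (v 1 2)))
  have hclose3 : ∀ᵐ R ∂μ, |rotBody A k R - T (shapeOfArr c.lev 3 R)| ≤ Γ * δ := by
    filter_upwards [c.close 3, hL.box] with R hR' hb
    have a00 := (hR' 0 0).2 k
    have b11 := (hR' 1 1).2 (Fin.last K)
    have a01 := (hR' 0 1).2 k
    have b01 := (hR' 0 1).2 (Fin.last K)
    have a02 := (hR' 0 2).2 k
    have b12 := (hR' 1 2).2 (Fin.last K)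
    simp only [Fin.val_zero, Fin.val_one, Fin.val_two, if_true,
      if_neg (show (0 : Fin 3) ≠ 1 by decide), if_neg (show (0 : Fin 3) ≠ 2 by decide),
      if_neg (show (1 : Fin 3) ≠ 2 by decide)] at a00 b11 a01 b01 a02 b12
    rw [(hb 1 2 (Fin.last K).succ).2] at b12
    refine hlin _ _ _ _ _ _ a01 b01 ?_
    have p1 := abs_mul_sub_le a00 b01 (hb _ _ _).1 hxs
    have p2 := abs_mul_sub_le a01 b11 (hb _ _ _).1 (hxv _)
    have p3 := abs_mul_sub_le a02 b12 (hb _ _ _).1 (hxv _)
    rw [abs_le] at p1 p2 p3 ⊢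
    constructor <;> linarith
  have hv : ∀ p, weight m p * |res p| ≤ Γ * δ * weight m p := by
    intro p
    set s := c.lev ⁻¹' {p}
    have hs : MeasurableSet s := c.meas (MeasurableSet.singleton p)
    set Ep := (fun R : VArr (K + 2) => R 0 1) ⁻¹' s
    have hEp : MeasurableSet Ep := hs.preimage (by fun_prop)
    have hmes : μ.real Ep = weight m p := by
      have h := c.law_pair hL zero_ne_one fun l => if l = p then (1 : ℝ) else 0
      simp only [mul_ite, mul_one, mul_zero, Finset.sum_ite_eq', Finset.mem_univ, if_true] at h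
      rw [← h, ← integral_indicator_one hEp]
      refine integral_congr_ae (Eventually.of_forall fun R => ?_)
      by_cases hp : c.lev (R 0 1) = p
      · simp [Ep, s, hp]
      · simp [Ep, s, hp]
    have hTint : ∫ R in Ep, T (shapeOfArr c.lev 3 R) ∂μ = weight m p * res p := by
      rw [← integral_indicator hEp]
      have he : (Ep.indicator fun R => T (shapeOfArr c.lev 3 R)) =
          fun R => (fun v : Shape c.ξ.r 3 => if v 0 1 = p then T v else 0) (shapeOfArr c.lev 3 R) := by
        funext R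
        simp only [Set.indicator, Ep, s, Set.mem_preimage, Set.mem_singleton_iff, shapeOfArr,
          if_neg (show (0 : Fin 3) ≠ 1 by decide), Fin.val_zero, Fin.val_one]
      rw [he, sum_indicator_eq c.meas (c.law 3)]
      refine (sum_shape_three m fun a b d => if a = p then
        A.c k * y.v a - A.ctop * x.v a +
          (A.a k - A.top) * (x.s * y.v a + x.v a * y.s - 2 * (x.v b * y.v d)) else 0).trans ?_
      rw [Finset.sum_eq_single p (fun a _ ha => by
        rw [Finset.sum_eq_zero fun l _ => by simp [ha]]; simp) (by simp)]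
      congr 1
      set U := A.c k * y.v p - A.ctop * x.v p + (A.a k - A.top) * (x.s * y.v p + x.v p * y.s)
      have e : ∀ l : Fin (c.ξ.r + 1), (if l < p then weight m l * (if p = p then
            A.c k * y.v p - A.ctop * x.v p +
              (A.a k - A.top) * (x.s * y.v p + x.v p * y.s - 2 * (x.v l * y.v l)) else 0)
          else if l = p then (weight m p + padded m (p.val + 1)) * (if p = p then
            A.c k * y.v p - A.ctop * x.v p +
              (A.a k - A.top) * (x.s * y.v p + x.v p * y.s - 2 * (x.v p * y.v p)) else 0)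
          else weight m l * ((if p = p then A.c k * y.v p - A.ctop * x.v p +
              (A.a k - A.top) * (x.s * y.v p + x.v p * y.s - 2 * (x.v l * y.v p)) else 0) +
            (if p = p then A.c k * y.v p - A.ctop * x.v p +
              (A.a k - A.top) * (x.s * y.v p + x.v p * y.s - 2 * (x.v p * y.v l)) else 0))) =
          U * ((weight m l + if p < l then weight m l else 0) +
              if l = p then padded m (p.val + 1) else 0) -
            2 * (A.a k - A.top) * ((if l ≤ p then weight m l * x.v l * y.v l else 0) +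
              (if p < l then weight m l * (x.v l * y.v p + x.v p * y.v l) else 0) +
              if l = p then padded m (p.val + 1) * (x.v p * y.v p) else 0) := fun l => by
        simp only [U, if_true]
        rcases lt_trichotomy l p with h | h | h
        · simp only [if_pos h, if_pos h.le, if_neg (not_lt.2 h.le), if_neg h.ne]; ring
        · subst h
          simp only [lt_irrefl, le_refl, if_false, if_true]; ring
        · simp only [if_pos h, if_neg (not_le.2 h), if_neg (lt_asymm h), if_neg h.ne']; ring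
      rw [Finset.sum_congr rfl fun l _ => e l, Finset.sum_sub_distrib, ← Finset.mul_sum,
        ← Finset.mul_sum]
      simp only [Finset.sum_add_distrib, Finset.sum_ite_eq', Finset.mem_univ, if_true,
        sum_weight', Vale.Agent.P157.Parisi.Full.Spherical.tail_weight]
      simp only [res, U, El.mul, upMass_eq]
      ring
    have hb3 : ∀ R, |T (shapeOfArr c.lev 3 R)| ≤ ∑ v, |T v| := fun R =>
      Finset.single_le_sum (f := fun v => |T v|) (fun _ _ => abs_nonneg _) (Finset.mem_univ _)
    have i1 : Integrable (fun R => T (shapeOfArr c.lev 3 R)) μ := integrable_shape_fun c.meas T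
    have i2 : Integrable (rotBody A k) μ := by
      refine integrable_of_abs_le (by unfold rotBody; fun_prop) (B := Γ * δ + ∑ v, |T v|) ?_
      filter_upwards [hclose3] with R hR'
      linarith [abs_sub_abs_le_abs_sub (rotBody A k R) (T (shapeOfArr c.lev 3 R)), hb3 R]
    have hw : 0 ≤ weight m p := weight_nonneg c.ξ.isPath p
    calc weight m p * |res p| = |-(∫ R in Ep, T (shapeOfArr c.lev 3 R) ∂μ)| := by
          rw [hTint, abs_neg, abs_mul, abs_of_nonneg hw]
      _ = |∫ R in Ep, (rotBody A k R - T (shapeOfArr c.lev 3 R)) ∂μ| := by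
          rw [integral_sub i2.integrableOn i1.integrableOn, rot_body hL hR hφ k hs, zero_sub]
      _ ≤ ∫ R in Ep, |rotBody A k R - T (shapeOfArr c.lev 3 R)| ∂μ := abs_integral_le_integral_abs
      _ ≤ ∫ _ in Ep, Γ * δ ∂μ := integral_mono_ae (i2.sub i1).abs.integrableOn
          (integrable_const _) (ae_restrict_of_ae hclose3)
      _ = Γ * δ * weight m p := by rw [setIntegral_const, hmes, smul_eq_mul, mul_comm]
  have hsum : ∑ p, weight m p * |res p| ≤ Γ * δ :=
    (Finset.sum_le_sum fun p _ => hv p).trans_eq (by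
      rw [← Finset.mul_sum, sum_weight', mul_one])
  simp only [El.dist, El.smul]
  have e1 : A.c k * y.s - (A.ctop * x.s + A.gapTop k * (El.mul m x y).s) =
      A.c k * y.s - A.ctop * x.s + (A.a k - A.top) * (El.mul m x y).s := by rw [hgap]; ring
  have e2 : ∀ p, A.c k * y.v p - (A.ctop * x.v p + A.gapTop k * (El.mul m x y).v p) = res p :=
    fun p => by simp only [res]; rw [hgap]; ring
  rw [e1, Finset.sum_congr rfl fun p _ => by rw [e2 p]]
  calc _ ≤ Γ * δ + Γ * δ := add_le_add hself hsum
    _ = _ := by ring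

lemma Cell.treeExp_close (hb : ∀ k, (A.blockEl c.ξ.m c.ξ.q k).IsCov ∧
      (A.blockEl c.ξ.m c.ξ.q k).s ≤ 1) {η : ℝ}
    (hη : ∀ k, El.dist c.ξ.m (c.e k) (A.blockEl c.ξ.m c.ξ.q k) ≤ η) {n : ℕ}
    {F : (Fin (K + 2) → Fin n → Fin n → ℝ) → ℝ} (hF : Continuous F) {ε C : ℝ} (hC : 0 ≤ C)
    (hmod : ∀ x y : Fin (K + 2) → Fin n → Fin n → ℝ,
      (∀ g a b, |x g a b| ≤ 1) → (∀ g a b, |y g a b| ≤ 1) →
      |F x - F y| ≤ ε + C * ∑ g, ∑ a, ∑ b, |x g a b - y g a b|) :
    |∫ R, F (blockOfArr n R) ∂μ - A.treeExpV c.ξ n F| ≤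
      ε + C * (((K : ℝ) + 2) * n * n * (δ + |η|)) := by
  have := hL.prob
  set m := c.ξ.m
  set sh := shapeOfArr c.lev n
  set Y : Shape c.ξ.r n → Fin (K + 2) → Fin n → Fin n → ℝ := fun v => A.vgram c.ξ v
  have hY : ∀ v g a b, |Y v g a b| ≤ 1 := fun v g a b => by
    induction g using Fin.cases with
    | zero =>
      simp only [Y, Atoms.vgram, Fin.cons_zero, Path.gram]
      split_ifs
      · simp
      · rw [abs_le]
        constructor
        · linarith [c.ξ.isPath.nonneg, c.ξ.isPath.mono (Fin.zero_le (v a b))]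
        · exact (c.ξ.isPath.mono (Fin.le_last _)).trans c.ξ.isPath.le_one
    | succ k =>
      obtain ⟨h1, h2⟩ := El.IsCov.abs_le (hb k).1 (hb k).2
      simp only [Y, Atoms.vgram, Fin.cons_succ]
      split_ifs
      · exact h1
      · exact h2 _
  have htree : A.treeExpV c.ξ n F = ∫ R, F (Y (sh R)) ∂μ :=
    (sum_indicator_eq c.meas (c.law n) fun v => F (Y v)).symm
  have hmY : ∀ g a b, Measurable fun R => |blockOfArr n R g a b - Y (sh R) g a b| := fun g a b =>
    (Measurable.sub (by unfold blockOfArr; fun_prop)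
      (Measurable.of_discrete.comp (measurable_shapeOfArr c.meas n) :
        Measurable ((fun v => Y v g a b) ∘ sh))).abs
  have hiY : ∀ g a b, Integrable (fun R => |blockOfArr n R g a b - Y (sh R) g a b|) μ :=
    fun g a b => integrable_of_abs_le (hmY g a b) (B := 2) (hL.box.mono fun R hR => by
      rw [abs_abs]
      exact (abs_sub _ _).trans (by linarith [(hR a b g).1, hY (sh R) g a b, show |blockOfArr n R g a b| ≤ 1 from (hR a b g).1]))
  have hδ := c.delta_nonneg hL
  have hone : ∀ g a b, ∫ R, |blockOfArr n R g a b - Y (sh R) g a b| ∂μ ≤ δ + |η| := by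
    intro g a b
    induction g using Fin.cases with
    | zero =>
      refine (integral_mono_ae (hiY _ a b) (integrable_const δ) ?_).trans (by simp)
      filter_upwards [c.close n] with R hR
      simpa [Y, Atoms.vgram, Path.gram, blockOfArr] using (hR a b).1
    | succ k =>
      have hd := (hη k).trans (le_abs_self η)
      simp only [El.dist] at hd
      have hw0 : ∀ p, 0 ≤ weight m p * |(c.e k).v p - (A.blockEl m c.ξ.q k).v p| := fun p =>
        mul_nonneg (weight_nonneg c.ξ.isPath p) (abs_nonneg _)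
      by_cases hab : a = b
      · subst hab
        refine (integral_mono_ae (hiY _ a a) (integrable_const (δ + |η|)) ?_).trans (by simp)
        filter_upwards [c.close n] with R hR
        have h := (hR a a).2 k
        simp only [if_true] at h
        simp only [Y, Atoms.vgram, Fin.cons_succ, if_true, blockOfArr]
        have := Finset.sum_nonneg fun p (_ : p ∈ Finset.univ) => hw0 p
        exact (abs_sub_le _ ((c.e k).s) _).trans (by linarith)
      · have hab' : (a : ℕ) ≠ b := fun h => hab (Fin.ext h)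
        set D : Fin (c.ξ.r + 1) → ℝ := fun p => |(c.e k).v p - (A.blockEl m c.ξ.q k).v p|
        have hmD : Measurable fun R : VArr (K + 2) => D (c.lev (R (a : ℕ) (b : ℕ))) :=
          (Measurable.of_discrete (f := D)).comp
            (c.meas.comp ((measurable_pi_apply _).comp (measurable_pi_apply _)))
        have hiD : Integrable (fun R => D (c.lev (R (a : ℕ) (b : ℕ)))) μ :=
          integrable_of_abs_le (μ := μ) hmD
            (B := ∑ p, |D p|) (Eventually.of_forall fun R =>
              Finset.single_le_sum (f := fun p => |D p|) (fun _ _ => abs_nonneg _)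
                (Finset.mem_univ _))
        refine (integral_mono_ae (g := fun R => δ + D (c.lev (R (a : ℕ) (b : ℕ)))) (hiY _ a b)
          ((integrable_const δ).add hiD) ?_).trans ?_
        · filter_upwards [c.close n] with R hR
          have h := (hR a b).2 k
          simp only [if_neg hab, shapeOfArr] at h
          simp only [Y, Atoms.vgram, Fin.cons_succ, if_neg hab, blockOfArr, sh, shapeOfArr, D]
          exact (abs_sub_le _ ((c.e k).v (c.lev (R (a : ℕ) (b : ℕ)))) _).trans (by linarith)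
        · rw [integral_add (integrable_const δ) hiD, c.law_pair hL hab' D]
          have := abs_nonneg ((c.e k).s - (A.blockEl m c.ξ.q k).s)
          simp only [integral_const, probReal_univ, one_smul, D]
          linarith
  have hFB : Integrable (fun R => F (blockOfArr n R)) μ := by
    set S : Set (Fin (K + 2) → Fin n → Fin n → ℝ) := Metric.closedBall 0 1
    obtain ⟨B, hB⟩ := (isCompact_closedBall (0 : Fin (K + 2) → Fin n → Fin n → ℝ) 1).exists_bound_of_continuousOn
      hF.continuousOn
    refine integrable_of_abs_le (hF.comp (continuous_blockOfArr n)).measurable (B := B)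
      (hL.box.mono fun R hR => hB _ ?_)
    rw [mem_closedBall_zero_iff, pi_norm_le_iff_of_nonneg zero_le_one]
    refine fun g => (pi_norm_le_iff_of_nonneg zero_le_one).2 fun a => ?_
    exact (pi_norm_le_iff_of_nonneg zero_le_one).2 fun b =>
      (Real.norm_eq_abs _).trans_le (hR a b g).1
  have hFY : Integrable (fun R => F (Y (sh R))) μ :=
    integrable_of_abs_le (μ := μ)
      (Measurable.of_discrete.comp (measurable_shapeOfArr c.meas n) :
        Measurable ((fun v => F (Y v)) ∘ sh)) (B := ∑ v, |F (Y v)|)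
      (Eventually.of_forall fun R =>
        Finset.single_le_sum (f := fun v => |F (Y v)|) (fun _ _ => abs_nonneg _)
          (Finset.mem_univ _))
  have hi : Integrable (fun R => ∑ g, ∑ a, ∑ b, |blockOfArr n R g a b - Y (sh R) g a b|) μ :=
    integrable_finsetSum _ fun g _ => integrable_finsetSum _ fun a _ =>
      integrable_finsetSum _ fun b _ => hiY g a b
  rw [htree, ← integral_sub hFB hFY]
  refine abs_integral_le_integral_abs.trans ?_
  refine (integral_mono_ae (g := fun R =>
    ε + C * ∑ g, ∑ a, ∑ b, |blockOfArr n R g a b - Y (sh R) g a b|) (hFB.sub hFY).abs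
    ((integrable_const ε).add (hi.const_mul C)) ?_).trans ?_
  · filter_upwards [hL.box] with R hR
    exact hmod _ _ (fun g a b => (hR a b g).1) (hY (sh R))
  · rw [integral_add (integrable_const ε) (hi.const_mul C), integral_const_mul]
    simp only [integral_const, probReal_univ, one_smul]
    refine add_le_add_right (mul_le_mul_of_nonneg_left ?_ hC) ε
    rw [integral_finsetSum _ fun g _ => integrable_finsetSum _ fun a _ =>
      integrable_finsetSum _ fun b _ => hiY g a b]
    refine (Finset.sum_le_sum (g := fun _ => (n : ℝ) * n * (δ + |η|)) fun g _ => ?_).trans_eq ?_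
    · rw [integral_finsetSum _ fun a _ => integrable_finsetSum _ fun b _ => hiY g a b]
      refine (Finset.sum_le_sum (g := fun _ => (n : ℝ) * (δ + |η|)) fun a _ => ?_).trans_eq ?_
      · rw [integral_finsetSum _ fun b _ => hiY g a b]
        exact (Finset.sum_le_sum fun b _ => hone g a b).trans_eq (by simp; ring)
      · simp; ring
    · simp; ring

end identities

end Vale.Agent.P166.Haar2.Struct

namespace Vale.Agent.P166.Haar2

open Struct Vale.Agent.P157.Parisi

/-- The structure theorem. -/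
theorem struct (hRot : RotStmt) (hGG : GGStmt) (hTree : TreeStmt) (hStab : StableStmt)
    (hBlock : BlockFactsStmt) : StructStmt := by
  intro K A Q C hStd hCap
  obtain ⟨φ, μ, hφ, hμ, hlim, hbox, hcell⟩ := hTree K A Q hStd (hGG K A Q C hStd hCap)
  have hL : Lim Q φ μ := ⟨hμ, hlim, hbox⟩
  have hR := hRot K A Q hStd
  have hex : ∀ M : ℕ, Nonempty (Cell μ (1 / ((M : ℝ) + 1))) := fun M => by
    obtain ⟨ξ, e, lev, hm, hcov, h⟩ := hcell M
    exact ⟨⟨ξ, e, lev, hm, hcov, fun n v => (h n (shapeOfArr lev n) rfl).1 v,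
      fun n => (h n (shapeOfArr lev n) rfl).2⟩⟩
  have cell : ∀ M : ℕ, Cell μ (1 / ((M : ℝ) + 1)) := fun M => (hex M).some
  obtain ⟨Cs, hCs⟩ := hStab K A
  obtain ⟨Cb, hCb⟩ := hBlock K A
  refine ⟨φ, fun j => (cell j).ξ, hφ, fun n F hF => ?_⟩
  set Γ : ℝ := ∑ k, 2 * (A.c k + A.ctop + 8 * |A.gapTop k|)
  have hΓk : ∀ k, 2 * (A.c k + A.ctop + 8 * |A.gapTop k|) ≤ Γ := fun k =>
    Finset.single_le_sum (f := fun k => 2 * (A.c k + A.ctop + 8 * |A.gapTop k|))
      (fun k _ => by have := A.pos k; have : 0 < A.ctop := A.pos _; positivity) (Finset.mem_univ k)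
  have hΓ : 0 ≤ Γ := Finset.sum_nonneg fun k _ => by
    have := A.pos k; have : 0 < A.ctop := A.pos _; positivity
  set B : ℝ := 2 * ((K : ℝ) + 2) + Γ
  have hη : ∀ M : ℕ, ∀ k, El.dist (cell M).ξ.m ((cell M).e k)
      (A.blockEl (cell M).ξ.m (cell M).ξ.q k) ≤ Cs * (B * (1 / ((M : ℝ) + 1))) := by
    intro M
    have hδ : (0 : ℝ) ≤ 1 / ((M : ℝ) + 1) := by positivity
    refine hCs _ _ _ (cell M).ξ.isPath (cell M).e (cell M).cov _ (by positivity)
      (((cell M).sum_dist hL).trans ?_) fun k => ((cell M).rot_dist hL hR hφ k).trans ?_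
    · exact mul_le_mul_of_nonneg_right (le_add_of_nonneg_right hΓ) hδ
    · exact mul_le_mul_of_nonneg_right ((hΓk k).trans (le_add_of_nonneg_left (by positivity))) hδ
  have hdiff : Tendsto (fun M : ℕ => ∫ R, F (blockOfArr n R) ∂μ - A.treeExpV (cell M).ξ n F)
      atTop (𝓝 0) := by
    rw [Metric.tendsto_atTop]
    intro ε hε
    obtain ⟨Cm, hCm, hmod⟩ := exists_modulus hF (half_pos hε)
    set L := Cm * (((K : ℝ) + 2) * n * n * (1 + |Cs * B|))
    obtain ⟨M₀, hM₀⟩ := exists_nat_gt (2 * L / ε)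
    refine ⟨M₀, fun M hM => ?_⟩
    have hb := fun k => (hCb _ _ _ (cell M).ξ.isPath).1 k
    have h := (cell M).treeExp_close hL hb (hη M) hF hCm hmod
    rw [Real.dist_eq, sub_zero]
    refine h.trans_lt ?_
    have hM' : (0 : ℝ) < (M : ℝ) + 1 := by positivity
    have e : Cm * (((K : ℝ) + 2) * n * n * (1 / ((M : ℝ) + 1) + |Cs * (B * (1 / ((M : ℝ) + 1)))|)) =
        L / ((M : ℝ) + 1) := by
      rw [← mul_assoc Cs, abs_mul (Cs * B), abs_of_pos (show (0 : ℝ) < 1 / ((M : ℝ) + 1) by positivity)]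
      simp only [L]; ring
    rw [e]
    have : L / ((M : ℝ) + 1) < ε / 2 := by
      rw [div_lt_iff₀ hM']
      rw [div_lt_iff₀ hε] at hM₀
      have : (M₀ : ℝ) ≤ M := by exact_mod_cast hM
      nlinarith
    linarith
  have h := ((hL.tendsto n F hF).sub
    (tendsto_const_nhds (x := ∫ R, F (blockOfArr n R) ∂μ))).add hdiff
  simp only [sub_self, add_zero] at h
  refine (h.congr' (Eventually.of_forall fun j => ?_))
  simp only [SysSeq.mean, SysSeq.sub, SysSeq.sys]
  ring

end Vale.Agent.P166.Haar2
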