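import Vale.Agent.P166.Haar2.Statements

/-!
Marginals of replica averages, uniqueness of laws from continuous test functions, and uniform
approximation on the box of overlaps.
-/

noncomputable section

open MeasureTheory Filter
open scoped BigOperators Topology BoundedContinuousFunction

namespace Vale.Agent.P166.Haar2.Struct

open Vale.Agent.P168.Limit (gw rav)
open Vale.Agent.P157.Parisi (scale)

lemma sum_gw {X : Type*} [Fintype X] [Nonempty X] (H : X → ℝ) : ∑ x, gw H x = 1 := by
  simp only [gw, ← Finset.sum_div]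
  exact div_self (Finset.sum_pos (fun x _ => Real.exp_pos _) Finset.univ_nonempty).ne'

/-- Replicas which are not read can be dropped. -/
lemma rav_comp {X : Type*} [Fintype X] [Nonempty X] (H : X → ℝ) {n k : ℕ} {e : Fin k → Fin n}
    (he : Function.Injective e) (f : (Fin k → X) → ℝ) :
    rav n H (fun σ => f (σ ∘ e)) = rav k H f := by
  classical
  simp only [rav]
  rw [← Finset.sum_fiberwise Finset.univ (fun σ : Fin n → X => σ ∘ e)]
  refine Finset.sum_congr rfl fun τ _ => ?_
  rw [Finset.sum_congr rfl fun σ hσ => by rw [(Finset.mem_filter.1 hσ).2], ← Finset.sum_mul]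
  congr 1
  set T : Fin n → Finset X := Function.extend e (fun i => {τ i}) fun _ => Finset.univ with hT
  have hfil : Finset.univ.filter (fun σ : Fin n → X => σ ∘ e = τ) = Fintype.piFinset T := by
    ext σ
    simp only [Finset.mem_filter, Finset.mem_univ, true_and, Fintype.mem_piFinset, funext_iff,
      Function.comp_apply]
    refine ⟨fun h l => ?_, fun h i => ?_⟩
    · by_cases hl : ∃ i, e i = l
      · obtain ⟨i, rfl⟩ := hl
        simp [hT, he.extend_apply, h i]
      · simp [hT, Function.extend_apply' _ _ _ hl]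
    · simpa [hT, he.extend_apply] using h (e i)
  rw [hfil, ← Finset.prod_univ_sum]
  rw [← Finset.prod_subset (Finset.subset_univ (Finset.univ.image e))]
  · rw [Finset.prod_image fun i _ i' _ h => he h]
    exact Finset.prod_congr rfl fun i _ => by simp [hT, he.extend_apply]
  · intro l _ hl
    have hl' : ¬ ∃ i, e i = l := by simpa using hl
    simp [hT, Function.extend_apply' _ _ _ hl', sum_gw]

lemma mean_comp {K : ℕ} (Q : SysSeq K) (j : ℕ) {n k : ℕ} {e : Fin k → Fin n}
    (he : Function.Injective e) (F : (Fin (K + 2) → Fin k → Fin k → ℝ) → ℝ) :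
    Q.mean j n (fun R => F fun g a b => R g (e a) (e b)) = Q.mean j k F := by
  unfold SysSeq.mean Sys.ovMean
  exact integral_congr_ae (Eventually.of_forall fun z =>
    rav_comp ((Q.sys j).ham (scale (Q.N j)) (Q.x j) (Q.B j) z) he
      fun σ => F ((Q.sys j).ovs z.1 σ))

/-- The first block is the sum of the others. -/
lemma ovs_sum {K N : ℕ} (a : Fin (K + 1) → ℝ) (w : Fin N → Fin (K + 1)) (U : OG N) {n : ℕ}
    (σ : Fin n → Vale.Agent.P157.Parisi.Cube N) (c d : Fin n) :
    (stdSys a w).ovs U σ 0 c d = ∑ k : Fin (K + 1), (stdSys a w).ovs U σ k.succ c d := by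
  simp only [Sys.ovs, Sys.ov, stdSys, Fin.cons_zero, Fin.cons_succ, ← Finset.sum_div]
  rw [Finset.sum_fiberwise]

section measure

variable {Ω : Type*} [MeasurableSpace Ω] {μ : Measure Ω} [IsProbabilityMeasure μ]

lemma integrable_of_abs_le {f : Ω → ℝ} (hf : Measurable f) {B : ℝ} (h : ∀ᵐ x ∂μ, |f x| ≤ B) :
    Integrable f μ :=
  Integrable.of_bound hf.aestronglyMeasurable B (by simpa [Real.norm_eq_abs] using h)

lemma map_eq_map {V : Type*} [TopologicalSpace V] [MeasurableSpace V] [BorelSpace V]
    [HasOuterApproxClosed V] {π π' : Ω → V} (hπ : Measurable π) (hπ' : Measurable π')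
    (h : ∀ u : V → ℝ, Continuous u → ∫ x, u (π x) ∂μ = ∫ x, u (π' x) ∂μ) :
    μ.map π = μ.map π' := by
  have := Measure.isProbabilityMeasure_map (μ := μ) hπ.aemeasurable
  have := Measure.isProbabilityMeasure_map (μ := μ) hπ'.aemeasurable
  refine ext_of_forall_integral_eq_of_IsFiniteMeasure fun u => ?_
  rw [integral_map hπ.aemeasurable u.continuous.aestronglyMeasurable,
    integral_map hπ'.aemeasurable u.continuous.aestronglyMeasurable]
  exact h u u.continuous

/-- An identity against continuous functions of `π` extends to measurable sets. -/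
lemma setIntegral_eq_zero {V : Type*} [TopologicalSpace V] [MeasurableSpace V] [BorelSpace V]
    [HasOuterApproxClosed V] {π : Ω → V} (hπ : Measurable π) {g : Ω → ℝ} (hg : Measurable g)
    {B : ℝ} (hB : ∀ᵐ x ∂μ, |g x| ≤ B)
    (h : ∀ u : V → ℝ, Continuous u → ∫ x, u (π x) * g x ∂μ = 0) {s : Set V}
    (hs : MeasurableSet s) : ∫ x in π ⁻¹' s, g x ∂μ = 0 := by
  obtain ⟨x₀, hx₀⟩ := hB.exists
  have hB0 : 0 ≤ B := (abs_nonneg _).trans hx₀
  set ν₁ := (μ.withDensity fun x => ENNReal.ofReal (g x + B)).map π
  set ν₂ := (μ.withDensity fun _ => ENNReal.ofReal B).map π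
  have hfin : ∀ f : Ω → ℝ, Integrable f μ →
      IsFiniteMeasure (μ.withDensity fun x => ENNReal.ofReal (f x)) := fun f hf =>
    isFiniteMeasure_withDensity_ofReal hf.hasFiniteIntegral
  have hgi : Integrable g μ := integrable_of_abs_le hg hB
  have i1 := hfin _ (hgi.add (integrable_const B))
  have i2 := hfin _ (integrable_const B)
  have e1 : ∀ u : Ω → ℝ, Measurable u →
      ∫ x, u x ∂(μ.withDensity fun x => ENNReal.ofReal (g x + B)) =
        ∫ x, (g x + B) * u x ∂μ := fun u hu => by
    rw [integral_withDensity_eq_integral_toReal_smul (by fun_prop)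
      (Eventually.of_forall fun _ => ENNReal.ofReal_lt_top)]
    refine integral_congr_ae ?_
    filter_upwards [hB] with x hx
    rw [ENNReal.toReal_ofReal (by linarith [(abs_le.1 hx).1]), smul_eq_mul]
  have e2 : ∀ u : Ω → ℝ, Measurable u →
      ∫ x, u x ∂(μ.withDensity fun _ => ENNReal.ofReal B) = ∫ x, B * u x ∂μ := fun u hu => by
    rw [integral_withDensity_eq_integral_toReal_smul (by fun_prop)
      (Eventually.of_forall fun _ => ENNReal.ofReal_lt_top)]
    simp [ENNReal.toReal_ofReal hB0]
  have : IsFiniteMeasure ν₁ := inferInstanceAs (IsFiniteMeasure (Measure.map _ _))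
  have : IsFiniteMeasure ν₂ := inferInstanceAs (IsFiniteMeasure (Measure.map _ _))
  have heq : ν₁ = ν₂ := by
    refine ext_of_forall_integral_eq_of_IsFiniteMeasure fun u => ?_
    have hu : Measurable fun x => u (π x) := u.continuous.measurable.comp hπ
    have hub : ∀ᵐ x ∂μ, |u (π x)| ≤ ‖u‖ := Eventually.of_forall fun x => u.norm_coe_le_norm _
    rw [integral_map hπ.aemeasurable u.continuous.aestronglyMeasurable,
      integral_map hπ.aemeasurable u.continuous.aestronglyMeasurable, e1 _ hu, e2 _ hu]
    have hi : Integrable (fun x => u (π x)) μ := integrable_of_abs_le hu hub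
    have hi' : Integrable (fun x => u (π x) * g x) μ := by
      refine integrable_of_abs_le (hu.mul hg) (B := ‖u‖ * B) ?_
      filter_upwards [hB, hub] with x hx hx'
      rw [abs_mul]
      exact mul_le_mul hx' hx (abs_nonneg _) (norm_nonneg _)
    have hsplit : ∀ x, (g x + B) * u (π x) = u (π x) * g x + B * u (π x) := fun x => by ring
    simp only [hsplit]
    rw [integral_add hi' (hi.const_mul B), h _ u.continuous, zero_add]
  have hkey := congrArg (fun ν : Measure V => ν.real s) heq
  simp only [ν₁, ν₂, measureReal_def, Measure.map_apply hπ hs, withDensity_apply _ (hπ hs)] at hkey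
  rw [← integral_eq_lintegral_of_nonneg_ae
      (Eventually.filter_mono (ae_mono Measure.restrict_le_self) (hB.mono fun x hx => by
        simp only [Pi.zero_apply]; linarith [(abs_le.1 hx).1])) (by fun_prop),
    ← integral_eq_lintegral_of_nonneg_ae (Eventually.of_forall fun _ => hB0) (by fun_prop),
    integral_add hgi.integrableOn (integrable_const B).integrableOn] at hkey
  linarith

end measure

/-- A continuous function of overlaps moves little when the entries move little on average. -/
lemma exists_modulus {G n : ℕ} {F : (Fin G → Fin n → Fin n → ℝ) → ℝ} (hF : Continuous F)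
    {ε : ℝ} (hε : 0 < ε) :
    ∃ C : ℝ, 0 ≤ C ∧ ∀ x y : Fin G → Fin n → Fin n → ℝ,
      (∀ g a b, |x g a b| ≤ 1) → (∀ g a b, |y g a b| ≤ 1) →
      |F x - F y| ≤ ε + C * ∑ g, ∑ a, ∑ b, |x g a b - y g a b| := by
  set S : Set (Fin G → Fin n → Fin n → ℝ) := Metric.closedBall 0 1
  have hS : IsCompact S := isCompact_closedBall _ _
  have hmem : ∀ x : Fin G → Fin n → Fin n → ℝ, (∀ g a b, |x g a b| ≤ 1) → x ∈ S := fun x hx => by
    rw [mem_closedBall_zero_iff, pi_norm_le_iff_of_nonneg zero_le_one]
    refine fun g => (pi_norm_le_iff_of_nonneg zero_le_one).2 fun a => ?_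
    exact (pi_norm_le_iff_of_nonneg zero_le_one).2 fun b => (Real.norm_eq_abs _).trans_le (hx g a b)
  obtain ⟨B, hB⟩ := hS.exists_bound_of_continuousOn hF.continuousOn
  obtain ⟨δ, hδ, hu⟩ := Metric.uniformContinuousOn_iff.1
    (hS.uniformContinuousOn_of_continuous hF.continuousOn) ε hε
  refine ⟨2 * |B| / δ, by positivity, fun x y hx hy => ?_⟩
  set D := ∑ g, ∑ a, ∑ b, |x g a b - y g a b|
  have hD : 0 ≤ D := Finset.sum_nonneg fun _ _ => Finset.sum_nonneg fun _ _ =>
    Finset.sum_nonneg fun _ _ => abs_nonneg _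
  rcases lt_or_ge D δ with h | h
  · have hd : dist x y ≤ D := by
      refine (dist_pi_le_iff hD).2 fun g => (dist_pi_le_iff hD).2 fun a =>
        (dist_pi_le_iff hD).2 fun b => ?_
      rw [Real.dist_eq]
      refine le_trans ?_ (Finset.single_le_sum (f := fun g => ∑ a, ∑ b, |x g a b - y g a b|)
        (fun _ _ => Finset.sum_nonneg fun _ _ => Finset.sum_nonneg fun _ _ => abs_nonneg _)
        (Finset.mem_univ g))
      refine le_trans ?_ (Finset.single_le_sum (f := fun a => ∑ b, |x g a b - y g a b|)
        (fun _ _ => Finset.sum_nonneg fun _ _ => abs_nonneg _) (Finset.mem_univ a))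
      exact Finset.single_le_sum (f := fun b => |x g a b - y g a b|) (fun _ _ => abs_nonneg _)
        (Finset.mem_univ b)
    have := (hu x (hmem x hx) y (hmem y hy) (hd.trans_lt h)).le
    rw [Real.dist_eq] at this
    have : 0 ≤ 2 * |B| / δ * D := by positivity
    linarith
  · have h1 := hB x (hmem x hx)
    have h2 := hB y (hmem y hy)
    rw [Real.norm_eq_abs] at h1 h2
    have : |F x - F y| ≤ 2 * |B| := (abs_sub _ _).trans (by linarith [le_abs_self B])
    have : 2 * |B| ≤ 2 * |B| / δ * D := by
      rw [div_mul_eq_mul_div, le_div_iff₀ hδ]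
      exact mul_le_mul_of_nonneg_left h (by positivity)
    linarith

end Vale.Agent.P166.Haar2.Struct
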